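import Crest.Agent.X212.G75.Defs
import Crest.Agent.X212.M.Geq
import Crest.Agent.X212.Met55.Pul

/-!
# Row 212, layer G: standard worlds agree where their base data agree
-/

set_option autoImplicit false
set_option linter.unusedSectionVars false
noncomputable section
open Set Function Filter Topology
open scoped ContDiff Manifold
open Crest.Agent.R208.F (Ext)

namespace Crest.Agent.X212.G75
open An M Cyf70
open Dr59 (mf pm)
open Met55 (atx Co Sp VF VJ dmp)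
open Line51 (Ln th)

variable {X X' : Mf 4} {A A' A₀ κ lam : Type} [Fintype A] [Fintype A'] [Fintype A₀] [Fintype κ]
  [Fintype lam] [DecidableEq lam] {M : Mark X A κ} {M' : Mark X' A' κ} {I : MId M M' A₀}

theorem isOpen_hf (a : A) (b : Bool) : IsOpen (hf M a b) :=
  ((M.sys.w a).op_sd b).union (M.sys.w a).op_band

theorem hf_iff (a : A₀) (b : Bool) {x : X.M} (hx : x ∈ I.ψ.source) :
    I.ψ x ∈ hf M' (I.f' a) b ↔ x ∈ hf M (I.f a) b :=
  or_congr (I.sd a b x hx) (Met55.mem_band I a hx)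

theorem band_inj (N : Band X) {q : N.Y.M × ℝ} {a b : X.M → Ext X.E}
    (h : pm (IC N.Y.I) X.I N.j a q = pm (IC N.Y.I) X.I N.j b q) : a (N.j q) = b (N.j q) := by
  have k : ∀ c : X.M → Ext X.E,
      pm X.I (IC N.Y.I) (Line51.ji N) (pm (IC N.Y.I) X.I N.j c) (N.j q) = c (N.j q) := fun c => by
    rw [Dr59.pm_comp ((N.oe.contMDiff _).mdifferentiableAt (by simp))
      ((Line51.cm_ji N q).mdifferentiableAt (by simp))]
    refine Dr59.pm_of_eventually_id (eventually_of_mem (N.oe.isOpen_range.mem_nhds ⟨q, rfl⟩) ?_) c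
    rintro _ ⟨r, rfl⟩
    exact congrArg N.j (Line51.ji_j N r)
  rw [← k a, ← k b]
  exact Dr59.pm_congr_right (by rwa [Line51.ji_j])

section gam
variable {a : A₀} {q : (M.bn (I.f a)).Y.M × ℝ} {N : ML M lam} {N' : ML M' lam} {V : Set X.M}
  {w : X.M → Matrix lam lam ℂ}

theorem cm_gam : ContMDiffAt (IC (M.bn (I.f a)).Y.I) (IC (M'.bn (I.f' a)).Y.I) ∞
    (fun q => (I.g a q.1, q.2)) q := ((I.g a).contMDiff.prodMap contMDiff_id) q

theorem pm_gam (β : X'.M → Ext X'.E) :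
    pm (IC (M.bn (I.f a)).Y.I) X.I (M.bn (I.f a)).j (pm X.I X'.I I.ψ β) q =
      pm (IC (M.bn (I.f a)).Y.I) (IC (M'.bn (I.f' a)).Y.I) (fun q => (I.g a q.1, q.2))
        (pm (IC (M'.bn (I.f' a)).Y.I) X'.I (M'.bn (I.f' a)).j β) q := by
  rw [Dr59.pm_comp (I.md (I.sub a ⟨q, rfl⟩)) (((M.bn _).oe.loc q).mdifferentiableAt (by simp)),
    Dr59.pm_comp (((M'.bn _).oe.loc _).mdifferentiableAt (by simp))
      (cm_gam.mdifferentiableAt (by simp))]
  exact congrArg (pm _ _ · β q) (funext (I.jj a))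

theorem nA_gam (h : LId N N' I V w) (h3 : |q.2| < 3) (hq : (M.bn (I.f a)).j q ∈ V) :
    pm (IC (M.bn (I.f a)).Y.I) X.I (M.bn (I.f a)).j (th X.I w) q +
      pm (IC (M.bn (I.f a)).Y.I) (IC (M'.bn (I.f' a)).Y.I) (fun q => (I.g a q.1, q.2))
        (N'.nA (I.f' a)) q = N.nA (I.f a) q := by
  have m1 := (N'.um _).sm (I.g a q.1, q.2) h3.le
  rw [Dr59.pm_apply _ (N'.nA _), ML.nA, map_add, ← Dr59.pm_apply, ← Dr59.pm_apply, ← add_assoc]
  refine congrArg₂ (· + ·) ?_ ?_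
  · rw [Line51.pm_th (φ := fun q : _ × ℝ => (I.g a q.1, q.2)) m1 (cm_gam.mdifferentiableAt (by simp)),
      Line51.pm_th (h.uni.sm _ hq)
      (((M.bn _).oe.loc q).mdifferentiableAt (by simp)), add_comm,
      ← Line51.th_trans ((h.uni.sm _ hq).comp ((M.bn _).oe.contMDiff q)) (.comp (f := fun q : _ × ℝ => (I.g a q.1, q.2)) m1 cm_gam)
        (h.uni.iso _ hq) (I.jj a q ▸ (N'.um _).iso (I.g a q.1, q.2) h3.le)]
    refine Line51.th_congr ?_
    filter_upwards [(M.bn _).oe.continuous.continuousAt.eventually (h.op.mem_nhds hq),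
      (isOpen_lt continuous_snd.abs continuous_const).mem_nhds h3] with r h1 h2
    exact h.m a r h2.le h1
  · rw [Dr59.pm_comp mdifferentiableAt_fst (cm_gam.mdifferentiableAt (by simp)), ← h.LY a]
    exact (Dr59.pm_comp (md_dif _ _) mdifferentiableAt_fst).symm

end gam

variable (I) in
/-- the walls that are active at `x` are matched -/
structure RelAt (t : A → ℝ) (t' : A' → ℝ) (x : X.M) : Prop where
  par : t ∈ M.sys.Par
  par' : t' ∈ M'.sys.Par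
  src : x ∈ I.ψ.source
  l : ∀ a, t a ≠ 0 → x ∈ range (M.bn a).j → ∃ b, I.f b = a ∧ t' (I.f' b) = t a
  r : ∀ a, t' a ≠ 0 → I.ψ x ∈ range (M'.bn a).j → ∃ b, I.f' b = a ∧ t (I.f b) ≠ 0

variable {t : A → ℝ} {t' : A' → ℝ} {x : X.M} {V : Set X.M} {W : World M} {W' : World M'}
  {B : Bas X univ} {B' : Bas X' univ} {u u' : ℝ} {N : ML M lam} {N' : ML M' lam} {Λ : Lns W N}
  {Λ' : Lns W' N'} {b : LBas X univ} {b' : LBas X' univ} {w : X.M → Matrix lam lam ℂ}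

theorem relAt (h : I.Rel V t t') (hx : x ∈ V) (hs : x ∈ I.ψ.source) : RelAt I t t' x := by
  refine ⟨h.par, h.par', hs, fun a ha k => ?_, fun a ha k => ?_⟩
  · obtain ⟨b, rfl⟩ : a ∈ range I.f := by_contra fun e => disjoint_left.1 (h.off a e ha) k hx
    exact ⟨b, rfl, h.eq b⟩
  · obtain ⟨b, rfl⟩ : a ∈ range I.f' := by_contra fun e =>
      disjoint_left.1 (h.off' a e ha) k ⟨x, hx, rfl⟩
    exact ⟨b, rfl, h.eq b ▸ ha⟩

/-- the metrics agree at `x` -/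
theorem RelAt.co (h : RelAt I t t' x) (hW : Std W B) (hW' : Std W' B')
    (hx : x ∉ M.sys.cores (Sys.inf t))
    (hB : Co (fun i => mf X.I X'.I I.ψ x (atx (B.r u) x i)) (atx (B'.r u') (I.ψ x))) :
    Co (fun i => mf X.I X'.I I.ψ x (W.k (u, t) x i)) (W'.k (u', t') (I.ψ x)) := by
  by_cases k : ∃ a, t a ≠ 0 ∧ x ∈ range (M.bn a).j
  · obtain ⟨a, ha, q, rfl⟩ := k
    obtain ⟨a, rfl, e⟩ := h.l a ha ⟨q, rfl⟩
    have ho : (t (I.f a), q.2) ∈ Off := or_iff_not_imp_right.2 fun k =>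
      (h.par.1 _).2.lt_of_ne fun k' => hx (mem_biUnion (show I.f a ∈ Sys.inf t from k')
        ((M.bn _).j_mem_core.2 (not_not.1 k)))
    intro α β
    have h2 := hW'.band u' t' h.par' (I.f' a) (e ▸ ha) (I.g a q.1, q.2) (e ▸ ho) α β
    rw [← I.jj, e] at h2
    refine (hW.band u t h.par _ ha q ho (α ∘ₗ dmp X.I X'.I I.ψ _) (β ∘ₗ dmp X.I X'.I I.ψ _)).trans
      (Eq.trans (congrArg₂ (fun r s => _ * r + _ * s) (hB α β) ?_) h2.symm)
    exact Finset.sum_congr rfl fun i _ =>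
      congrArg₂ (fun r s => α r * β s) (X212.M.mf_nf _ i) (X212.M.mf_nf _ i)
  · simp only [not_exists, not_and] at k
    refine (((hW.off u t h.par x k).map (dmp X.I X'.I I.ψ x)).trans hB).trans
      (hW'.off u' t' h.par' _ fun a ha hx' => ?_).symm
    obtain ⟨a, rfl, e⟩ := h.r a ha hx'
    exact k _ e ((Met55.mem_band I a h.src).1 hx')

/-- the connections agree at `x` -/
theorem RelAt.con (h : RelAt I t t' x) (hΛ : LStd Λ b) (hΛ' : LStd Λ' b') (hL : LId N N' I V w)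
    (hx : x ∈ V) (hb : th X.I w x + pm X.I X'.I I.ψ (b'.b u') x = b.b u x) :
    th X.I w x + pm X.I X'.I I.ψ (Λ'.a0 (u', t')) x = Λ.a0 (u, t) x := by
  by_cases k : ∃ a, t a ≠ 0 ∧ x ∈ range (M.bn a).j
  · obtain ⟨a, ha, q, rfl⟩ := k
    obtain ⟨a, rfl, e⟩ := h.l a ha ⟨q, rfl⟩
    refine band_inj _ (a := th X.I w + pm X.I X'.I I.ψ (Λ'.a0 (u', t'))) ?_
    rw [hΛ.band u t h.par _ ha q, Dr59.pm_congr_right (a := b.b u)
      (b := th X.I w + pm X.I X'.I I.ψ (b'.b u')) hb.symm, Dr59.pm_add, Dr59.pm_add, Pi.add_apply,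
      Pi.add_apply, pm_gam, pm_gam, Dr59.pm_apply _ (pm _ _ _ (Λ'.a0 _)),
      hΛ'.band u' t' h.par' _ (e ▸ ha), map_add, map_smul, map_smul, e, ← Dr59.pm_apply,
      ← Dr59.pm_apply]
    by_cases k : |q.2| < 3
    · rw [← nA_gam hL k hx]; module
    · rw [chi_eq_zero (s := q.2) (by linarith [not_lt.1 k])]; module
  · simp only [not_exists, not_and] at k
    rw [hΛ.off u t h.par x k, ← hb]
    refine congrArg _ (Dr59.pm_congr_right (hΛ'.off u' t' h.par' _ fun a ha hx' => ?_))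
    obtain ⟨a, rfl, e⟩ := h.r a ha hx'
    exact k _ e ((Met55.mem_band I a h.src).1 hx')

theorem wId_std (hW : Std W B) (hW' : Std W' B') (hV : V ⊆ I.ψ.source)
    (hB : ∀ x ∈ V, Co (fun i => mf X.I X'.I I.ψ x (atx (B.r u) x i)) (atx (B'.r u') (I.ψ x))) :
    WId W W' I V u u' := fun _ _ h x hx k => (relAt h hx (hV hx)).co hW hW' k (hB x hx)

theorem cId_std (hΛ : LStd Λ b) (hΛ' : LStd Λ' b') (hL : LId N N' I V w)
    (hb : ∀ x ∈ V, th X.I w x + pm X.I X'.I I.ψ (b'.b u') x = b.b u x) : CId Λ Λ' I V w u u' :=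
  fun _ _ h => ⟨hL.uni, fun x hx => (relAt h hx (hL.sub hx)).con hΛ hΛ' hL hx (hb x hx)⟩

/-! ### one mark -/

section one
variable {W₁ : World M} {B₁ : Bas X univ} {Λ₁ : Lns W₁ N} {b₁ : LBas X univ} {t₁ : A → ℝ}

theorem co_id {ι ι' : Type} [Fintype ι] [Fintype ι'] {v : ι → X.E} {v' : ι' → X.E} :
    Co (fun i => mf X.I X.I id x (v i)) v' ↔ Co v v' := by rw [Dr59.mf_id]; rfl

theorem th_p (N : ML M lam) (x : X.M) : th X.I N.p x = 0 :=
  Line51.th_herm (N.ok.sm x trivial) (.of_forall fun y => (N.ok.prj y trivial).herm)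

theorem relAt_refl (ht : t ∈ M.sys.Par) (ht₁ : t₁ ∈ M.sys.Par)
    (h : ∀ a, x ∈ range (M.bn a).j → t₁ a = t a) : RelAt (.refl M) t t₁ x :=
  ⟨ht, ht₁, trivial, fun a _ k => ⟨a, rfl, h a k⟩, fun a ha k => ⟨a, rfl, h a k ▸ ha⟩⟩

theorem std_co (hW : Std W B) (hW₁ : Std W₁ B₁) (ht : t ∈ M.sys.Par) (ht₁ : t₁ ∈ M.sys.Par)
    (h : ∀ a, x ∈ range (M.bn a).j → t₁ a = t a) (hx : x ∉ M.sys.cores (Sys.inf t))
    (hB : Co (atx (B.r u) x) (atx (B₁.r u') x)) : Co (W.k (u, t) x) (W₁.k (u', t₁) x) :=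
  co_id.1 ((relAt_refl ht ht₁ h).co hW hW₁ hx (co_id.2 hB))

theorem std_con (hΛ : LStd Λ b) (hΛ₁ : LStd Λ₁ b₁) (ht : t ∈ M.sys.Par) (ht₁ : t₁ ∈ M.sys.Par)
    (h : ∀ a, x ∈ range (M.bn a).j → t₁ a = t a) (hb : b₁.b u' x = b.b u x) :
    Λ₁.a0 (u', t₁) x = Λ.a0 (u, t) x := by
  have e : ∀ c : X.M → Ext X.E, th X.I N.p x + pm X.I X.I (MId.refl M).ψ c x = c x := fun c => by
    rw [th_p, zero_add]; exact congrFun (Dr59.pm_id c) x
  exact (e _).symm.trans ((relAt_refl ht ht₁ h).con hΛ hΛ₁ (LId.refl N) trivial ((e _).trans hb))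

theorem wId_one (hW : Std W B) (hW₁ : Std W₁ B₁) (hB : ∀ x, Co (atx (B.r u) x) (atx (B₁.r u') x)) :
    WId W W₁ (.refl M) univ u u' := wId_std hW hW₁ subset_rfl fun x _ => co_id.2 (hB x)

theorem cId_one (hΛ : LStd Λ b) (hΛ₁ : LStd Λ₁ b₁) (hb : b₁.b u' = b.b u) :
    CId Λ Λ₁ (.refl M) univ N.p u u' := cId_std hΛ hΛ₁ (LId.refl N) fun x _ => by
  rw [th_p, zero_add, hb]; exact congrFun (Dr59.pm_id _) x

end one

end Crest.Agent.X212.G75
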