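import Crest.Agent.X212.M.Rel
import Crest.Agent.X212.M.Coef
import Crest.Agent.X212.M.Nrm
import Crest.Agent.X212.An.Cut
import Crest.Agent.X212.Nd18.Defs
import Crest.Agent.X212.Dr59.Lat

/-!
# Row 212, layer G: scenes, the numerical hypothesis, the counting theory

A `Scene` is a mark with finitely many lines, frozen necks `fz`, cells `K` and lens walls `ls`
(each a copy of the model `Lm`, inside = side `false`, one cut inside).  `Num` is the only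
hypothesis under which the non top strata are killed.  `Th` is what layer AN delivers.
-/

set_option autoImplicit false
set_option linter.unusedSectionVars false
noncomputable section
open Set Function Filter Topology MeasureTheory
open scoped ContDiff Manifold
open Crest.Agent.R208.F (Ext)

namespace Crest.Agent.X212.G75
open An M Dr59
open Met55 (atx)
open Line51 (Ln rl)

variable {κ lam : Type} [Fintype κ] [Fintype lam] [DecidableEq lam]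

/-- the side `b` of the wall `a` together with its band -/
def hf {X : Mf 4} {A : Type} (M : Mark X A κ) (a : A) (b : Bool) : Set X.M :=
  (M.sys.w a).sd b ∪ (M.sys.w a).band

/-- the identity, matching the walls of `f` -/
def selfId {X : Mf 4} {A A₀ : Type} [Fintype A] [Fintype A₀] (M : Mark X A κ) (f : A₀ ↪ A) :
    MId M M A₀ := { M.resId f with f := f }

variable (κ lam) in
/-- the model of a lens wall -/
structure LM : Type 1 where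
  X : Mf 4
  M : Mark X Unit κ
  N : Bool → ML M lam
  B : Bas X univ
  b : Bool → LBas X univ
  cut : Bool → Cut X.M (lam ⊕ lam)

/-- scenes -/
structure Scene (Lm : LM κ lam) : Type 1 where
  X : Mf 4
  A : Type
  [fA : Fintype A]
  [dA : DecidableEq A]
  M : Mark X A κ
  L : Type
  [fL : Fintype L]
  [dL : DecidableEq L]
  N : L → ML M lam
  fz : Finset A
  K : L → Set (Finset A)
  ls : Finset A
  fl : A → L → L
  sg : A → L → Bool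
  I : ls → MId Lm.M M Unit
  cut : A → L → Cut X.M (lam ⊕ lam)

attribute [instance] Scene.fA Scene.dA Scene.fL Scene.dL

variable {Lm : LM κ lam}

namespace Scene
variable (S : Scene Lm)

open Classical in
/-- the walls outside the lens wall `l` (and `l` itself) -/
abbrev Ou (l : S.A) : Type := {a // (S.M.sys.w a).band ⊆ hf S.M l true}

/-- the curvature form of the line -/
abbrev cu (i : S.L) : S.X.M → Ext S.X.E := Ln.F S.X.I ⟨(S.N i).p, 0⟩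

open Classical in
structure OK : Prop where
  sp : S.M.Spare
  spl : ∀ i, (S.N i).Spare
  fz : ∀ a ∈ S.fz, ¬S.M.pin a ∧ a ∉ S.ls ∧ ∀ l ∈ S.ls, (S.M.sys.w a).band ⊆ (S.M.sys.w l).sd true ∧
    S.M.sys.Cmp a l
  cell : ∀ i, ∀ σ ∈ S.K i, S.M.sys.Cell (↑σ ∪ ↑S.fz) ∧ Disjoint σ S.fz
  down : ∀ i, ∀ σ ∈ S.K i, ∀ τ ⊆ σ, τ ∈ S.K i
  lsp : ∀ l ∈ S.ls, ¬S.M.pin l
  lsd : ∀ l ∈ S.ls, ∀ l' ∈ S.ls, l ≠ l' → Disjoint (hf S.M l false) (hf S.M l' false)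
  lsi : ∀ l ∈ S.ls, ∀ a, a ≠ l → S.M.sys.Cmp a l → (S.M.sys.w a).band ⊆ (S.M.sys.w l).sd true
  inv : ∀ l ∈ S.ls, ∀ i, S.fl l (S.fl l i) = i
  sg : ∀ l ∈ S.ls, ∀ i, S.sg l (S.fl l i) = !S.sg l i
  sg' : ∀ l ∈ S.ls, ∀ l' ∈ S.ls, l ≠ l' → ∀ i, S.sg l' (S.fl l i) = S.sg l' i
  kfl : ∀ l ∈ S.ls, ∀ i, ∀ σ ∈ S.K i, l ∈ σ → σ ∈ S.K (S.fl l i)
  wall : ∀ l : S.ls, (S.I l).f' () = l
  ins : ∀ (l : S.ls) i, LId (Lm.N (S.sg l i)) (S.N i) (S.I l) (hf Lm.M () false) (Lm.N (S.sg l i)).p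
  img : ∀ l : S.ls, (S.I l).ψ '' hf Lm.M () false = hf S.M l false
  out : ∀ l ∈ S.ls, ∀ i, LId (S.N i) (S.N (S.fl l i)) (selfId S.M (.subtype _ : S.Ou l ↪ S.A))
    (hf S.M l true) (S.N i).p
  cut : ∀ (l : S.ls) i, (Lm.cut (S.sg l i)).Rel (S.cut l i) ((Lm.M.sys.w ()).sd false) (S.I l).ψ
    fun x => rl ((Lm.N (S.sg l i)).p x)
  fzc : S.M.sys.Cell ↑S.fz
  lv : ∀ l ∈ S.ls, ∀ i, ip S.X.I S.M.o (S.cu (S.fl l i)) (S.cu (S.fl l i)) =
    ip S.X.I S.M.o (S.cu i) (S.cu i)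

/-- geometric data: standard worlds, equal to the model inside the lens walls -/
structure Dat : Type 1 where
  W : World S.M
  B : Bas S.X univ
  std : Std W B
  Λ : ∀ i, Lns W (S.N i)
  b : S.L → LBas S.X univ
  lstd : ∀ i, LStd (Λ i) (b i)
  met : ∀ (l : S.ls) u, ∀ x ∈ (Lm.M.sys.w ()).sd false, Met55.Co
    (fun n => mf Lm.X.I S.X.I (S.I l).ψ x (atx (Lm.B.r 0) x n)) (atx (B.r u) ((S.I l).ψ x))
  con : ∀ (l : S.ls) i u, ∀ x ∈ (Lm.M.sys.w ()).sd false,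
    pm Lm.X.I S.X.I (S.I l).ψ ((b i).b u) x = (Lm.b (S.sg l i)).b 0 x
  agr : ∀ l ∈ S.ls, ∀ i u, EqOn ((b (S.fl l i)).b u) ((b i).b u) (hf S.M l true)
  nrm : W.Nrm
  lnrm : ∀ i, (Λ i).Nrm

/-- the closed cell `σ` with the frozen necks beyond `T` -/
def Pt (σ : Finset S.A) (T : ℝ) (t : S.A → ℝ) : Prop :=
  (∀ a ∈ σ, t a ∈ Icc (0 : ℝ) 1) ∧ (∀ a ∈ S.fz, t a ∈ Icc T 1) ∧ ∀ a, a ∉ σ → a ∉ S.fz → t a = 0

/-! ### numbers -/

/-- `β = 1 - b₁ + b⁺`, the signature and `Λ²` of the (capped) open set `U` -/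
def Nb (i : S.L) (U : Set S.X.M) (β sg l2 : ℝ) : Prop :=
  ∃ (ι : Type) (_ : Fintype ι) (_ : DecidableEq ι) (e : ι → S.X.M → Ext S.X.E) (d : ι → ℝ),
    Lat S.X.I S.M.o U U e (Matrix.diagonal d) ∧
    β = 1 - Module.finrank ℝ (HR S.X.I 1 U) + {n | 0 < d n}.ncard ∧
    sg = {n | 0 < d n}.ncard - {n | d n < 0}.ncard ∧
    l2 = ∑ n, (ip S.X.I S.M.o (Ln.F S.X.I ⟨(S.N i).p, 0⟩) (e n) / (2 * Real.pi)) ^ 2 / d n

/-- the number of parameters inside the region -/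
def nm (σ : Finset S.A) (π : Reg S.A) : ℕ := (↑σ ∩ S.M.sys.inn π).ncard

/-- the number of lens walls (cuts) inside the region -/
def nh (π : Reg S.A) : ℕ := (↑S.ls ∩ S.M.sys.inn π).ncard

/-- the number of lens walls crossed by the broken walls -/
def nd (c : Finset S.A) : ℕ := {l | l ∈ S.ls ∧ ∃ a ∈ c, ¬S.M.sys.Cmp a l}.ncard

/-- the pieces of `Z c` inside the region `π` -/
def In (c : S.M.Cl) (π ρ : Reg S.A) : Prop := S.M.sys.Piece c.1 ρ ∧ S.M.sys.U ρ ⊆ S.M.sys.U π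

/-- their union -/
def un (D : S.Dat) (c : S.M.Cl) (π : Reg S.A) : Set (D.W.Z c).M := ⋃ ρ ∈ {ρ | S.In c π ρ}, D.W.pc c ρ

/-- both ends at the broken wall `a` converge to one flat configuration -/
def Mtc (D : S.Dat) (i : S.L) (m c : S.M.Cl) (p : Prm S.A) (a : S.A)
    (x : Cfg (D.W.Z c).M (Option κ) (lam ⊕ lam) 0) : Prop :=
  ∃ (K : Bool → Nd18.Nk ((S.N i).cy a).yd ((D.Λ i).B m c) ((D.Λ i).G m c p))
    (β : Nd18.YC (S.M.bn a).Y.M κ (lam ⊕ lam)) (ζ : Bool → Circle), ((S.N i).cy a).yd.Adm β ∧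
    (∀ z, (Nd18.cy β).m.Fg ((S.N i).cy a).yd.Z (Nd18.cy β).W z = 0) ∧ ∀ b,
      (K b).p = (if b then none else some 0) ∧ (K b).q = (if b then some 0 else none) ∧
      (∀ y s, 0 < M.pm b * s → M.pm b * s < 1 → (K b).ψ (y, len 1 b s) = D.W.nj c a (y, s)) ∧
      (K b).Lim x β (ζ b) (bif b then atBot else atTop)

/-- the level on `π` of every almost anti-self-dual connection that is flat or has a parallel line
on each piece satisfies `P`; further cylindrical walls may be broken, with a parallel section inside -/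
def Ab (i : S.L) (σ c₀ : Finset S.A) (π : Reg S.A) (P : ℝ → Prop) : Prop :=
  ∃ ε : ℝ, 0 < ε ∧ ∀ᶠ T in 𝓝[<] (1 : ℝ), ∀ (D : S.Dat) (m c : S.M.Cl) (u : ℝ) (t : S.A → ℝ),
    (∀ a, a ∈ c₀ ↔ a ∈ c.1 ∧ (S.M.pin a ∨ a ∈ S.fz)) → S.Pt σ T t → Sys.inf t = c.1 →
    ∀ x : Cfg (D.W.Z c).M (Option κ) (lam ⊕ lam) 0,
      x.Adm ((D.Λ i).B m c) ((D.Λ i).G m c (u, t)) →
      (∀ ρ, S.In c π ρ → Nd18.Lin (D.W.F m c (u, t)) x (D.W.pc c ρ) ∨
          ∀ z ∈ D.W.pc c ρ, x.m.Fg (D.W.F m c (u, t)) x.W z = 0) ∧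
        (∀ a ∈ c.1, a ∈ S.M.sys.inn π → S.Mtc D i m c (u, t) a x) ∧
        IntegrableOn (fun z => ‖x.m.Fg (D.W.F m c (u, t)) x.W z‖ ^ 2) (S.un D c π)
          (D.W.F m c (u, t)).μ ∧ (∀ a ∈ c.1, ¬S.M.pin a → a ∈ m.1) ∧
        (∀ ρ, S.In c π ρ → ∀ a ∈ c.1, a ∈ S.M.sys.inn π → S.M.sys.U ρ ⊆ (S.M.sys.w a).sd false →
          ∃ ξ, Nd18.ParS (D.W.F m c (u, t)) x (D.W.pc c ρ) ξ ∧ ∀ z ∈ D.W.pc c ρ, ‖ξ z‖ = 4) →
      ∫ z in S.un D c π, ‖x.m.p2 ((D.Λ i).B m c) z (x.m.Fg (D.W.F m c (u, t)) x.W z)‖ ^ 2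
          ∂(D.W.F m c (u, t)).μ ≤
        ε ^ 2 * ∫ z in S.un D c π, ‖x.m.Fg (D.W.F m c (u, t)) x.W z‖ ^ 2 ∂(D.W.F m c (u, t)).μ →
      P (∫ z in S.un D c π, x.m.kd ((D.Λ i).B m c) (D.W.F m c (u, t)) x.W z ∂(D.W.F m c (u, t)).μ)

end Scene

/-- admissible levels -/
def Lv (sg l2 k : ℝ) : Prop := 0 ≤ k ∧ ∃ n : ℤ, k = (l2 - sg) / 4 + n

/-- the weight (index `+ 4`) of a piece at the level `k` -/
def Wt (β sg l2 : ℝ) (m h : ℕ) (k : ℝ) : ℝ := 6 * k - 3 * β + (l2 - sg) / 2 + 4 + m - 2 * h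

/-- the index of the anti-self-duality problem of a piece at the level `k` -/
def Dl (β : ℝ) (m h : ℕ) (k : ℝ) : ℝ := 8 * k - 3 * β + m - 2 * h

namespace Scene
variable (S : Scene Lm)

/-- `w` is a lower bound for the weight of the piece `π` when the spinor vanishes on it -/
def Bd (i : S.L) (σ c : Finset S.A) (π : Reg S.A) (w : ℝ) : Prop :=
  ∃ β sg l2, S.Nb i (S.M.sys.U π) β sg l2 ∧
    (∀ k, Lv sg l2 k → -1 ≤ Dl β (S.nm σ π) (S.nh π) k → w ≤ Wt β sg l2 (S.nm σ π) (S.nh π) k) ∧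
    S.Ab i σ c π fun k => Lv sg l2 k → w ≤ Wt β sg l2 (S.nm σ π) (S.nh π) k

/-- **the numerical hypothesis** -/
def Num : Prop :=
  ∀ i, ∀ σ ∈ S.K i, ∀ c ⊆ σ, (∀ a ∈ c, S.M.pin a) → ∃ w : Reg S.A → ℝ,
    (∀ π, S.M.sys.Piece ↑c π → S.Bd i σ c π (w π)) ∧
    ∀ J : Finset (Reg S.A), (∀ π ∈ J, S.M.sys.Piece ↑c π) → c.Nonempty ∨ J.Nonempty →
      1 < ∑ π ∈ J, w π + 4 * ((c.card : ℝ) - J.card) - 2 * S.nd c

/-- good scenes -/
structure Good : Prop where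
  ok : S.OK
  num : S.Num

end Scene

/-! ### chains -/

/-- chains of cells with lines -/
abbrev Cn (L A : Type) : Type := L → Ch A

namespace Cn
variable {L A L' A' : Type} [Fintype L] [DecidableEq L] [Fintype A] [DecidableEq A]
  [DecidableEq L'] [DecidableEq A']

/-- a cell -/
def gen (i : L) (σ : Finset A) : Cn L A := Pi.single i (Pi.single σ 1)

/-- linear extension -/
def lx (g : L → Finset A → Cn L' A') (c : Cn L A) : Cn L' A' := ∑ i, ∑ σ, c i σ • g i σ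

/-- the boundary -/
def bd (c : Cn L A) : Cn L A := fun i => Ch.bdry (c i)

/-- push forward, and join with the cell `τ` -/
def pj (ι : L → L') (f : A ↪ A') (τ : Finset A') : Cn L A → Cn L' A' :=
  lx fun i σ => gen (ι i) (σ.map f ∪ τ)

end Cn

namespace Scene
variable (S : Scene Lm)

/-- chains of degree `d` all of whose faces at infinity are empty or cancel -/
structure Sf (d : ℕ) (c : Cn S.L S.A) : Prop where
  mem : ∀ i σ, c i σ ≠ 0 → σ ∈ S.K i ∧ σ.card = d ∧ ∀ a ∈ σ, S.M.pin a ∨ a ∈ S.ls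
  sym : ∀ l ∈ S.ls, ∀ i σ, l ∈ σ → c (S.fl l i) σ = c i σ

/-- closed chains -/
structure Cl (d : ℕ) (c : Cn S.L S.A) : Prop extends S.Sf d c where
  bd : c.bd = 0

end Scene

/-- an identification of scenes over `V`, for the walls `A₀` and the lines `L₀` -/
structure Mt (S S' : Scene Lm) (V : Set S.X.M) : Type 1 where
  A₀ : Type
  [fA : Fintype A₀]
  [dA : DecidableEq A₀]
  L₀ : Type
  [fL : Fintype L₀]
  [dL : DecidableEq L₀]
  I : MId S.M S'.M A₀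
  ι : L₀ ↪ S.L
  ι' : L₀ ↪ S'.L
  w : L₀ → S.X.M → Matrix lam lam ℂ
  lid : ∀ i, LId (S.N (ι i)) (S'.N (ι' i)) I V (w i)
  ls : Finset A₀
  ls' : S'.ls = ls.map I.f'
  lsub : ls.map I.f ⊆ S.ls
  lin : ∀ l ∈ S.ls, l ∈ ls.map I.f ↔ hf S.M l false ⊆ V
  fl : A₀ → L₀ → L₀
  hfl : ∀ l ∈ ls, ∀ i, ι (fl l i) = S.fl (I.f l) (ι i) ∧ ι' (fl l i) = S'.fl (I.f' l) (ι' i) ∧
    S.sg (I.f l) (ι i) = S'.sg (I.f' l) (ι' i) ∧ EqOn (w (fl l i)) (w i) (V ∩ hf S.M (I.f l) true) ∧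
    EqOn (w i) (S.N (ι i)).p (hf S.M (I.f l) false)
  mod : ∀ l h h', EqOn (S'.I ⟨I.f' l, h'⟩).ψ (I.ψ ∘ (S.I ⟨I.f l, h⟩).ψ) (hf Lm.M () false)
  fz : ∀ a ∈ S.fz, ∃ a₀, I.f a₀ = a ∧ I.f' a₀ ∈ S'.fz

attribute [instance] Mt.fA Mt.dA Mt.fL Mt.dL

namespace Mt
variable {S S' : Scene Lm} {V : Set S.X.M} (m : Mt S S' V)

/-- the chain on the left, joined with `τ` -/
abbrev l (τ : Finset S.A) : Cn m.L₀ m.A₀ → Cn S.L S.A := Cn.pj m.ι m.I.f τ

/-- the chain on the right -/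
abbrev r : Cn m.L₀ m.A₀ → Cn S'.L S'.A := Cn.pj m.ι' m.I.f' ∅

end Mt

/-! ### the theory -/

/-- `Z S j d c`: the count over the closed chain `c` of degree `d`, with `z ∈ S^{2j+1}`, at the level
of index zero.  `RS`, `DS`: the inside of an `S¹ × S²` wall; `Tm`: terminal chains; `NV`: the root -/
structure Th (Lm : LM κ lam) : Type 2 where
  Z : ∀ S : Scene Lm, ℕ → ℕ → Cn S.L S.A → ZMod 2
  RS : ∀ S : Scene Lm, S.L → S.A → S.A → S.A → Prop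
  DS : ∀ S : Scene Lm, S.L → S.A → Prop
  YD : Type 1
  Tm : YD → ℕ → ∀ S : Scene Lm, Cn S.L S.A → Prop
  NV : ∀ S : Scene Lm, S.L → Prop

namespace Th
variable (T : Th Lm)

def Add : Prop := ∀ (S : Scene Lm) j d c c', S.Good → S.Cl d c → S.Cl d c' →
  T.Z S j d (c + c') = T.Z S j d c + T.Z S j d c'

/-- Stokes -/
def Stk : Prop := ∀ (S : Scene Lm) j d e, S.Good → S.Sf (d + 1) e → T.Z S j d e.bd = 0

/-- diffeomorphisms, unused walls and lines, more frozen necks on the right -/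
def Nat : Prop := ∀ (S S' : Scene Lm) (m : Mt S S' univ) j d c, m.I.Glob → S.Good → S'.Good →
  S.Cl d (m.l ∅ c) → S'.Cl d (m.r c) → T.Z S j d (m.l ∅ c) = T.Z S' j d (m.r c)

/-- the face `S¹ × S²` -/
def Rf : Prop := ∀ (S S' : Scene Lm) (R e e' : S.A) (m : Mt S S' (hf S.M R true)) (R₀ : m.A₀) j d c,
  m.I.f R₀ = R → m.I.ψ '' hf S.M R true = hf S'.M (m.I.f' R₀) true →
  (∀ a ∈ S'.fz, ∃ a₀, m.I.f' a₀ = a ∧ m.I.f a₀ ∈ S.fz) → S.Good → S'.Good → S'.Cl d (m.r c) →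
  (∀ i σ, c i σ ≠ 0 → R₀ ∉ σ ∧ σ.map m.I.f ∪ {R, e} ∈ S.K (m.ι i) ∧ σ.map m.I.f ∪ {R, e'} ∈ S.K (m.ι i) ∧
    σ.map m.I.f' ∪ {m.I.f' R₀} ∈ S'.K (m.ι' i) ∧ T.RS S (m.ι i) R e e' ∧ T.DS S' (m.ι' i) (m.I.f' R₀)) →
  S.Cl (d + 1) (m.l {e} c + m.l {e'} c) →
  T.Z S j (d + 1) (m.l {e} c + m.l {e'} c) = T.Z S' j d (m.r c)

/-- finite rank -/
def Fact : Prop := ∀ y : T.YD, ∃ R, ∀ (S : Scene Lm) j d c, T.Tm y R S c → S.Good → S.Cl d c →
  T.Z S j d c = 0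

/-- non vanishing -/
def Nv : Prop := ∀ (S : Scene Lm) i, T.NV S i → S.Good → ∅ ∈ S.K i → ∃ j, T.Z S j 0 (Cn.gen i ∅) ≠ 0

structure Ax : Prop where
  add : T.Add
  stk : T.Stk
  nat : T.Nat
  rf : T.Rf
  fact : T.Fact
  nv : T.Nv

end Th

end Crest.Agent.X212.G75
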