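import Crest.Agent.X212.G75.Defs
import Crest.Agent.X212.M.Api
import Crest.Agent.X212.Nd18.Props

/-!
# Row 212, layer G: terminal chains

The frozen neck `a` (type `Y₀`) cuts the scene; `h` (homology sphere) and `b` (rational homology
sphere) are frozen necks on its right, `s` is a sphere between them.  The head `[a, s]` and the tail
(right of `b`) are copies of parts of the fixed `y : YD`.  The couplings sit on the frozen necks `G`.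
-/

set_option autoImplicit false
set_option linter.unusedSectionVars false
noncomputable section
open Set Function Filter Topology MeasureTheory
open scoped ContDiff Manifold
open Crest.Agent.R208.F (Ext)

namespace Crest.Agent.X212.G75
open An M Dr59
open Line51 (Ln Uni)

variable {κ lam : Type} [Fintype κ] [Fintype lam] [DecidableEq lam] {Lm : LM κ lam}

/-- the weight minus three quarters of the anti-self-dual index -/
def Ta (β sg l2 : ℝ) (m h : ℕ) : ℝ := Wt β sg l2 m h 0 - 3 / 4 * Dl β m h 0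

namespace Scene
variable (S : Scene Lm)

/-- the class `Λ + w` is characteristic on `V`, tested by lines marked on the walls `c₀` -/
def Chr (i : S.L) (c₀ : Finset S.A) (U V : Set S.X.M) (w : S.X.M → Ext S.X.E) : Prop :=
  ∀ (A₀ : Type) [Fintype A₀] (f : A₀ ↪ S.A) (l : Type) [Fintype l] [DecidableEq l]
    (N : ML (S.M.res f) l) (a : S.X.M → Ext S.X.E), ↑c₀ ⊆ range f → N.Spare → Cs S.X.I 2 V a →
    Ex S.X.I U (Ln.F S.X.I ⟨N.p, 0⟩ - a) → ∃ n : ℤ,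
      ip S.X.I S.M.o (Ln.F S.X.I ⟨(S.N i).p, 0⟩ + w) a + ip S.X.I S.M.o a a = 2 * n * (2 * Real.pi) ^ 2

/-- `k ≤ -c² / 4` for all classes `c` on `V` with `Λ + c` characteristic -/
def Lb (i : S.L) (c₀ : Finset S.A) (U V : Set S.X.M) (k : ℝ) : Prop :=
  ∃ (ι : Type) (_ : Fintype ι) (_ : DecidableEq ι) (e : ι → S.X.M → Ext S.X.E) (d : ι → ℝ),
    Lat S.X.I S.M.o V V e (Matrix.diagonal d) ∧ ∀ w, Dr59.Cl S.X.I 2 V w → S.Chr i c₀ U V w →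
      k ≤ -(∑ n, (ip S.X.I S.M.o w (e n) / (2 * Real.pi)) ^ 2 / d n) / 4

/-- no flat connection on the part of the piece `π` at the wall `a` -/
def Nf (i : S.L) (a : S.A) (c₀ : Finset S.A) (π : Reg S.A) : Prop :=
  ∀ (D : S.Dat) (m c : S.M.Cl) (p : Prm S.A), (∀ b, b ∈ c₀ ↔ b ∈ c.1 ∧ (S.M.pin b ∨ b ∈ S.fz)) →
    c.1 ⊆ ↑c₀ ∪ ↑S.ls → p ∈ S.M.Br c.1 → p ∈ S.M.O c.1 → ∀ ρ, S.In c π ρ → ρ a ≠ none →
    ∀ x : Cfg (D.W.Z c).M (Option κ) (lam ⊕ lam) 0, x.Adm ((D.Λ i).B m c) ((D.Λ i).G m c p) →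
      ¬∀ z ∈ D.W.pc c ρ, x.m.Fg (D.W.F m c p) x.W z = 0

end Scene

variable (κ lam) in
/-- the data that are fixed before the rank -/
structure YD : Type 1 where
  X : Mf 4
  A : Type
  [fA : Fintype A]
  M : Mark X A κ
  N : ML M lam
  a : A
  h : A
  s : A
  b : A
  C : ℤ

attribute [instance] YD.fA

structure YD.OK (y : YD κ lam) : Prop where
  sp : y.M.Spare
  spl : y.N.Spare
  pin : ¬y.M.pin y.a ∧ ¬y.M.pin y.h ∧ y.M.pin y.s ∧ ¬y.M.pin y.b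
  ah : y.M.sys.Cmp y.a y.h ∧ (y.M.sys.w y.h).band ⊆ (y.M.sys.w y.a).sd true
  hs : y.M.sys.Cmp y.h y.s ∧ (y.M.sys.w y.s).band ⊆ (y.M.sys.w y.h).sd true
  sb : y.M.sys.Cmp y.s y.b ∧ (y.M.sys.w y.b).band ⊆ (y.M.sys.w y.s).sd true
  rev : (y.M.sys.w y.a).band ⊆ (y.M.sys.w y.h).sd false ∧ (y.M.sys.w y.h).band ⊆ (y.M.sys.w y.s).sd false ∧
    (y.M.sys.w y.s).band ⊆ (y.M.sys.w y.b).sd false
  red : (y.N.cy y.a).yd.NoRed
  qhs : ∀ x ∈ ({y.h, y.b} : Set y.A), ∀ k ∈ ({1, 2} : Set ℕ), HZ (y.M.bn x).Y.I k (univ : Set (y.M.bn x).Y.M)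
  zhs : ∀ (l : Type) [Fintype l] [DecidableEq l] (p : (y.M.bn y.h).Y.M → Matrix l l ℂ),
    Ln.On (y.M.bn y.h).Y.I ⟨p, 0⟩ univ → ∃ u : _ → Matrix l Unit ℂ, Uni (y.M.bn y.h).Y.I 1 p u univ

/-- the data of a terminal chain -/
structure TD (y : YD κ lam) (S : Scene Lm) : Type 1 where
  a : S.A
  h : S.A
  s : S.A
  b : S.A
  i₀ : S.L
  G : Finset S.A
  IH : MId y.M S.M (Fin 3)
  wH : y.X.M → Matrix lam lam ℂ
  B : Type
  [fB : Fintype B]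
  IT : MId y.M S.M B
  b₀ : B
  wT : S.L → y.X.M → Matrix lam lam ℂ
  wL : S.L → S.X.M → Matrix lam lam ℂ
  β₀ : ℝ
  s₀ : ℝ
  l₀ : ℝ

attribute [instance] TD.fB

namespace TD
variable {y : YD κ lam} {S : Scene Lm} (t : TD y S)

/-- the wall lies on the side `e` of `a` -/
def Sd (e : Bool) (x : S.A) : Prop := (S.M.sys.w x).band ⊆ (S.M.sys.w t.a).sd e

open Classical in
/-- the walls of `σ` on the side `e` -/
def sd (e : Bool) (σ : Finset S.A) : Finset S.A := σ.filter (t.Sd e)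

/-- the pieces on the side `e` when `a` and `c` are broken -/
def Pc (e : Bool) (c : Finset S.A) (π : Reg S.A) : Prop :=
  S.M.sys.Piece ↑(insert t.a c) π ∧ S.M.sys.U π ⊆ (S.M.sys.w t.a).sd e

/-- the piece together with everything beyond `a` -/
def op (π : Reg S.A) : Set S.X.M := S.M.sys.U (update π t.a none)

/-- the part of the piece between `h` and `b` -/
def V (π : Reg S.A) : Set S.X.M :=
  S.M.sys.U π ∩ (S.M.sys.w t.h).sd true ∩ (S.M.sys.w t.b).sd false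

/-- the number of couplings in the piece -/
def nc (π : Reg S.A) : ℕ := (↑t.G ∩ S.M.sys.inn π).ncard

/-- left pieces on which the spinor vanishes -/
def BL (R : ℕ) (i : S.L) (σ c : Finset S.A) (π : Reg S.A) (w : ℝ) : Prop :=
  (π t.a = none → S.Bd i σ (insert t.a c) π w) ∧ (π t.a ≠ none → ∃ β sg l2,
    S.Nb t.i₀ (t.op π ∩ (S.M.sys.w t.s).sd false) β sg l2 ∧
    (S.Nf i t.a (insert t.a c) π ∧ w ≤ Ta β sg l2 (S.nm σ π) 0 + y.C - 7 / 4 ∨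
      w ≤ Wt β sg l2 (S.nm σ π) 0 0 - R))

/-- right pieces on which the spinor vanishes -/
def BR (i : S.L) (σ c : Finset S.A) (π : Reg S.A) (w : ℝ) : Prop :=
  (π t.a = none → S.Bd i σ (insert t.a c) π w) ∧ (π t.a ≠ none → ∃ β sg l2, S.Nb i (t.op π) β sg l2 ∧
    S.Nf i t.a (insert t.a c) π ∧
    w ≤ Ta β sg l2 (S.nm σ π) (S.nh π) + 4 - Ta t.β₀ t.s₀ t.l₀ 0 0 - y.C - 2)

/-- right pieces that are fixed by the circle, up to a constant that depends on `y` only -/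
def BS (i : S.L) (σ c : Finset S.A) (π : Reg S.A) (w : ℝ) : Prop :=
  ∃ β sg l2 k, S.Nb i (t.op π) β sg l2 ∧ S.Lb i c (t.op π) (t.V π) k ∧
    (π t.a = none → w ≤ Wt β sg l2 (S.nm σ π) (S.nh π) k ∧ S.Bd i σ (insert t.a c) π w) ∧
    (π t.a ≠ none → w ≤ Wt β sg l2 (S.nm σ π) (S.nh π) k + 4 - Wt t.β₀ t.s₀ t.l₀ 0 0 0 ∧
      (t.BR i σ c π w ∨ w ≤ Wt β sg l2 (S.nm σ π) (S.nh π) 0 + 4 - Wt t.β₀ t.s₀ t.l₀ 0 0 0))

open Classical in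
structure OK (R : ℕ) (c : Cn S.L S.A) : Prop where
  fz : t.a ∈ S.fz ∧ t.h ∈ S.fz ∧ t.b ∈ S.fz ∧ t.G ⊆ S.fz
  G : ∀ x ∈ t.G, (S.M.sys.w x).band ⊆ (S.M.sys.w t.h).sd true
  ord : (S.M.sys.w t.b).band ⊆ (S.M.sys.w t.s).sd true ∧ (S.M.sys.w t.s).band ⊆ (S.M.sys.w t.b).sd false
  side : ∀ i σ, c i σ ≠ 0 → ∀ x ∈ σ ∪ S.fz, x = t.a ∨ x = t.h ∨ t.Sd false x ∨
    (S.M.sys.w x).band ⊆ (S.M.sys.w t.h).sd true
  ls : ∀ l ∈ S.ls, hf S.M l false ⊆ (S.M.sys.w t.h).sd true ∩ (S.M.sys.w t.b).sd false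
  orb : ∀ i i', c i ≠ 0 → c i' ≠ 0 → Relation.ReflTransGen (fun i i' => ∃ l ∈ S.ls, i' = S.fl l i) i i'
  exc : ∀ i σ i' σ', c i σ ≠ 0 → c i' σ' ≠ 0 → c i' (t.sd false σ ∪ t.sd true σ') ≠ 0
  left : ∀ i, LId (S.N t.i₀) (S.N i)
    (selfId S.M (.subtype fun x => (S.M.sys.w x).band ⊆ hf S.M t.h false)) (hf S.M t.h false) (t.wL i)
  hf0 : ⇑t.IH.f = ![y.a, y.h, y.s] ∧ ⇑t.IH.f' = ![t.a, t.h, t.s]
  him : t.IH.ψ '' (hf y.M y.a true ∩ hf y.M y.s false) = hf S.M t.a true ∩ hf S.M t.s false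
  hl : LId y.N (S.N t.i₀) t.IH (hf y.M y.a true ∩ hf y.M y.s false) t.wH
  tf0 : t.IT.f t.b₀ = y.b ∧ t.IT.f' t.b₀ = t.b
  tim : t.IT.ψ '' hf y.M y.b true = hf S.M t.b true
  tl : ∀ i, c i ≠ 0 → LId y.N (S.N i) t.IT (hf y.M y.b true) (t.wT i)
  tw : ∀ i σ, c i σ ≠ 0 → ∀ x ∈ σ ∪ S.fz, (S.M.sys.w x).band ⊆ (S.M.sys.w t.b).sd true →
    x ∈ range t.IT.f'
  nb : S.Nb t.i₀ ((S.M.sys.w t.s).sd false) t.β₀ t.s₀ t.l₀
  nl : ∀ i σ, c i σ ≠ 0 → ∀ e ⊆ σ, (∀ a ∈ e, S.M.pin a) → ∃ w : Reg S.A → ℝ,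
    (∀ π, t.Pc false e π → t.BL R i σ e π (w π)) ∧
    ∀ J : Finset (Reg S.A), (∀ π ∈ J, t.Pc false e π) → (∃ π ∈ J, π t.a ≠ none) →
      -1 < ∑ π ∈ J, w π + 4 * (((t.sd false e).card : ℝ) - J.card)
  nr : ∀ i σ, c i σ ≠ 0 → ∀ e ⊆ σ, (∀ a ∈ e, S.M.pin a) → ∃ w : Reg S.A → ℝ,
    (∀ π, t.Pc true e π → t.BR i σ e π (w π)) ∧
    ∀ J : Finset (Reg S.A), (∀ π ∈ J, t.Pc true e π) → (∃ π ∈ J, π t.a ≠ none) →
      (∃ π, t.Pc true e π ∧ π ∉ J) →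
      -1 < ∑ π ∈ J, w π + 4 * (((t.sd true e).card : ℝ) - J.card) - 2 * S.nd e
  ns : ∀ i σ, c i σ ≠ 0 → ∀ e ⊆ σ, (∀ a ∈ e, S.M.pin a) → ∃ w : Reg S.A → ℝ,
    (∀ π, t.Pc true e π → t.BS i σ e π (w π)) ∧
    ∀ J : Finset (Reg S.A), (∀ π ∈ J, t.Pc true e π) →
      R < ∑ π ∈ J, (w π - 2 * t.nc π) + 4 * (((t.sd true e).card : ℝ) - J.card) + 2 * t.G.card -
        2 * S.nd e

/-- the pieces away from `a` on the side `b` -/
def Na (i : S.L) (σ e : Finset S.A) : Prop := ∀ b, ∃ w : Reg S.A → ℝ,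
  (∀ π, t.Pc b e π → π t.a = none → S.Bd i σ (insert t.a e) π (w π)) ∧
  ∀ J : Finset (Reg S.A), (∀ π ∈ J, t.Pc b e π ∧ π t.a = none) → (t.sd b e).Nonempty →
    1 < ∑ π ∈ J, w π + 4 * (((t.sd b e).card : ℝ) - J.card) - 2 * (if b then (S.nd e : ℝ) else 0)

/-- `Na` on the support -/
def NA (c : Cn S.L S.A) : Prop :=
  ∀ i σ, c i σ ≠ 0 → ∀ e ⊆ σ, (∀ a ∈ e, S.M.pin a) → t.Na i σ e

end TD

/-- **terminal chains** -/
def Tm (y : YD κ lam) (R : ℕ) (S : Scene Lm) (c : Cn S.L S.A) : Prop :=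
  y.OK ∧ ∃ t : TD y S, t.OK R c ∧ t.NA c

theorem Tm.mono {y : YD κ lam} {R R' : ℕ} {S : Scene Lm} {c : Cn S.L S.A} (h : Tm y R S c)
    (hR : R' ≤ R) : Tm y R' S c := by
  obtain ⟨h0, t, h, hn⟩ := h
  have e : (R' : ℝ) ≤ R := by exact_mod_cast hR
  refine ⟨h0, t, { h with nl := fun i σ a c b d => ?_, ns := fun i σ a c b d => ?_ }, hn⟩
  · obtain ⟨w, h1, h2⟩ := h.nl i σ a c b d
    refine ⟨w, fun π k => ⟨(h1 π k).1, fun k' => ?_⟩, h2⟩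
    obtain ⟨β, sg, l2, h3, h4⟩ := (h1 π k).2 k'
    exact ⟨β, sg, l2, h3, h4.imp_right fun h5 => by linarith⟩
  · obtain ⟨w, h1, h2⟩ := h.ns i σ a c b d
    exact ⟨w, h1, fun J k => e.trans_lt (h2 J k)⟩

end Crest.Agent.X212.G75
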