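import Crest.Agent.X212.G75.Std
import Crest.Agent.X212.Ms48.Main
import Crest.Agent.X212.Cyl58.Cps

/-!
# Row 212, layer G: geometric data of a scene exist, can be joined and pulled back
-/

set_option autoImplicit false
set_option linter.unusedSectionVars false
noncomputable section
open Set Function Filter Topology
open scoped ContDiff Manifold
open Crest.Agent.R208.F (Ext)

namespace Crest.Agent.X212.G75
open An M Cyf70 Prm93
open Dr59 (mf pm)
open Met55 (atx Co Sp VF VJ VAt FAt dmp pbv pfd)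
open Line51 (Ln th J1)

local notation "st" => Real.smoothTransition

section bas
variable {X : Mf 4} {ι : Type} [Fintype ι]

/-- base metrics from a family with any finite index set -/
def mkB (r : ℝ → ι → VF X.I X.M) (sm : ∀ u x i, VJ X.I (fun s => r s i) u x)
    (sp : ∀ u x, Sp (atx (r u) x)) : Bas X univ :=
  ⟨Fintype.card ι, fun u n => r u ((Fintype.equivFin ι).symm n), fun u x _ _ => sm u x _,
    fun u x _ => (sp u x).of_range fun i => ⟨1, Fintype.equivFin ι i, by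
      simp only [atx, Equiv.symm_apply_apply]; exact (one_smul ℝ (r u i x : X.E)).symm⟩⟩

theorem mkB_co {r : ℝ → ι → VF X.I X.M} (sm sp) (u : ℝ) (x : X.M) :
    Co (atx (r u) x) (atx ((mkB r sm sp).r u) x) := fun α β =>
  ((Fintype.equivFin ι).symm.sum_comp fun i => α (r u i x) * β (r u i x)).symm

/-- a constant family of metrics -/
def cstB (r : ι → VF X.I X.M) (h : ∀ x, FAt r x) : Bas X univ :=
  mkB (fun _ => r) (fun _ x i => .of_fixed ((h x).sm i)) fun _ x => (h x).sp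

theorem cstB_co {r : ι → VF X.I X.M} (h) (u : ℝ) (x : X.M) :
    Co (atx r x) (atx ((cstB r h).r u) x) := mkB_co (r := fun _ => r) _ _ u x

/-- a constant family of forms -/
def cstL (γ : X.M → Ext X.E) (hs : Dr59.Sm X.I univ γ) (hd : Dr59.Dg 1 univ γ) : LBas X univ :=
  ⟨fun _ => γ, fun _ => hs, fun _ => hd, fun _ x _ =>
    Line51.j1_fixed (hs x trivial) (.of_forall fun y => hd y trivial)⟩

theorem cd_st (f : ℝ → ℝ) (h : ContDiff ℝ ∞ f) (u : ℝ) (x : X.M) :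
    JAt X.I (fun s _ => f (Real.pi / 2 * st s)) u x :=
  .of_par (c := fun s => f (Real.pi / 2 * st s))
    (h.comp (contDiff_const.mul Real.smoothTransition.contDiff)).contDiffAt

/-- a path of metrics -/
def mixB (B B' : Bas X univ) (u u' : ℝ) : Bas X univ :=
  mkB (fun s => Sum.elim (fun i x => Real.cos (Real.pi / 2 * st s) • B.r u i x)
      fun i x => Real.sin (Real.pi / 2 * st s) • B'.r u' i x)
    (fun s x i => by
      cases i
      exacts [.smul (cd_st _ Real.contDiff_cos s x) (.of_fixed (B.sm u x trivial _).right),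
        .smul (cd_st _ Real.contDiff_sin s x) (.of_fixed (B'.sm u' x trivial _).right)])
    fun s x => by
      by_cases h : Real.cos (Real.pi / 2 * st s) = 0
      · have k : Real.sin (Real.pi / 2 * st s) ≠ 0 := fun k => by
          simpa [h, k] using Real.sin_sq_add_cos_sq (Real.pi / 2 * st s)
        exact (B'.sp u' x trivial).of_range fun i => ⟨_, .inr i, (inv_smul_smul₀ k _).symm⟩
      · exact (B.sp u x trivial).of_range fun i => ⟨_, .inl i, (inv_smul_smul₀ h _).symm⟩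

theorem mixB_cm (B B' : Bas X univ) (u u' s : ℝ) (x : X.M) (α β : X.E →ₗ[ℝ] ℝ) :
    M.cm (atx ((mixB B B' u u').r s) x) α β =
      Real.cos (Real.pi / 2 * st s) ^ 2 * M.cm (atx (B.r u) x) α β +
        Real.sin (Real.pi / 2 * st s) ^ 2 * M.cm (atx (B'.r u') x) α β := by
  refine (mkB_co _ _ s x α β).symm.trans ((Fintype.sum_sum_type _).trans ?_)
  simp only [M.cm, Finset.mul_sum]
  refine congrArg₂ (· + ·) (Finset.sum_congr rfl fun i _ => ?_) (Finset.sum_congr rfl fun i _ => ?_) <;>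
    exact (congrArg₂ (· * ·) (α.map_smul _ _) (β.map_smul _ _)).trans (by simp only [smul_eq_mul, atx]; ring)

/-- a path of forms -/
def mixL (b b' : LBas X univ) (u u' : ℝ) : LBas X univ where
  b s := (1 - st s) • b.b u + st s • b'.b u'
  sm _ := ((b.sm u).smul _).add ((b'.sm u').smul _)
  dg _ := ((b.dg u).smul _).add ((b'.dg u').smul _)
  js s x _ := (J1.smul (f := fun s _ => 1 - st s) (.of_par (c := fun s => 1 - st s)
      (contDiff_const.sub Real.smoothTransition.contDiff).contDiffAt)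
      (cstL _ (b.sm u) (b.dg u) |>.js s x trivial)).add (J1.smul (f := fun s _ => st s)
      (.of_par Real.smoothTransition.contDiff.contDiffAt) (cstL _ (b'.sm u') (b'.dg u') |>.js s x trivial))

/-- the cut-off of the side `false` of a band -/
def cin (N : Band X) (x : X.M) : ℝ := st (1 - N.s x)

theorem cin_sm (N : Band X) (x : X.M) : Pj41.FSm X.I (cin N) x :=
  (Real.smoothTransition.contDiff.comp (contDiff_const.sub contDiff_id)).contDiffAt.comp_contMDiffAt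
    (N.contMDiff_s x)

theorem cin_one {N : Band X} {x : X.M} (h : x ∈ N.wall.sd false) : cin N x = 1 :=
  Real.smoothTransition.one_of_one_le (by have := N.mem_sd.1 h; simp [M.pm] at this; linarith)

theorem cin_supp (N : Band X) : tsupport (cin N) ⊆ N.wall.sd false ∪ N.wall.band := by
  refine (closure_minimal (t := {x | N.s x ≤ 1}) (fun x (hx : _ ≠ _) => not_lt.1 fun k : 1 < N.s x => hx
    (Real.smoothTransition.zero_of_nonpos (by linarith)))
    (isClosed_le N.contMDiff_s.continuous continuous_const)).trans fun x (hx : N.s x ≤ 1) => ?_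
  by_cases k : N.s x < 0
  · exact .inl (N.mem_sd.2 (by simpa [M.pm] using k))
  · exact .inr ((N.exists_of_abs_s_lt (abs_lt.2 ⟨by linarith, by linarith⟩)).elim fun y h => ⟨_, h⟩)

end bas

section pul
variable {X X' : Mf 4} {A A' A₀ κ lam : Type} [Fintype A] [Fintype A'] [Fintype A₀] [Fintype κ]
  [Fintype lam] [DecidableEq lam] {M : Mark X A κ} {M' : Mark X' A' κ} {I : MId M M' A₀}
  {N : ML M lam} {N' : ML M' lam} {w : X.M → Matrix lam lam ℂ} (hI : I.Glob)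

/-- pull-back of base metrics -/
def pulB (B : Bas X' univ) : Bas X univ :=
  ⟨B.n, fun u i => pbv X.I X'.I I.ψ (B.r u i), fun u x _ i => VJ.pbv (X' := fun s => B.r s i)
    (Met55.pd_ld (Met55.src hI x)) (B.sm u _ trivial i), fun u x _ =>
    (Met55.sp_rel (Met55.pd_ld (Met55.src hI x)) fun _ =>
      Met55.pbv_rel (Met55.pd_ld (Met55.src hI x)) _).2 (B.sp u _ trivial)⟩

theorem pulB_rel (B : Bas X' univ) (u : ℝ) (x : X.M) :
    (fun i => mf X.I X'.I I.ψ x (atx ((pulB hI B).r u) x i)) = atx (B.r u) (I.ψ x) :=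
  funext fun _ => Met55.pbv_rel (Met55.pd_ld (Met55.src hI x)) _

/-- pull-back of base forms -/
def pulL (hL : LId N N' I univ w) (b : LBas X' univ) : LBas X univ where
  b u := th X.I w + pm X.I X'.I I.ψ (b.b u)
  sm u := hL.uni.sm_th.add ((b.sm u).pm (Met55.mp_ψ hI))
  dg u := (Line51.dg_th _).add ((b.dg u).pm (mapsTo_univ _ _))
  js u x _ := (Line51.j1_fixed (hL.uni.sm_th x trivial)
    (.of_forall fun y => Line51.dg_th (U := univ) w y trivial)).add
      (J1.pm I.ψ (Met55.src hI x) (b.js u _ trivial))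

variable {W : World M} {p : ℝ → Prm A} (hp : ContDiff ℝ ∞ p) (h0 : ∀ u, (p u).2 ∈ M.sys.Par)
include hp h0

theorem exists_kb (W : World M) (h1 : ∀ u a, (p u).2 a < 1) :
    ∃ B : Bas X univ, ∀ u x, Co (W.k (p u) x) (atx (B.r u) x) := by
  have ld : ∀ x, IsLocalDiffeomorphAt X.I (W.Z M.c0).I ∞ (W.φ M.c0) x := fun x =>
    W.ld (c := M.c0) (by simp [Sys.cores, Mark.c0])
  have hΩ := fun u => Mark.mem_Ω (M := M) (σ := M.c0.1) (W.φ M.c0) fun a _ => h1 u a
  refine ⟨mkB (fun u i => pbv X.I (W.Z M.c0).I (W.φ M.c0) ((W.L M.c0 M.c0).e (p u) i))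
    (fun u x i => VJ.pbv (X' := fun s => (W.L M.c0 M.c0).e (p s) i) (ld x) (VJ.reparam
      (X := fun s => (W.L M.c0 M.c0).e s i) hp.contDiffAt ((W.L _ _).sm _ _ (hΩ u _) i)))
    fun u x => (Met55.sp_rel (ld x) fun _ => Met55.pbv_rel (ld x) _).2 ((W.L _ _).sp _ _ (hΩ u _)),
    fun u x => .trans (Co.of_map (A := dmp X.I (W.Z M.c0).I (W.φ M.c0) x) (Met55.ld_bij (ld x)) ?_)
      (mkB_co _ _ u x)⟩
  rw [← Met55.atx_rel fun _ => Met55.pbv_rel (ld x) _]
  exact W.co _ _ _ (Mark.mem_Br_c0 (h0 u)) x fun h =>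
    let ⟨a, ha, _⟩ := mem_iUnion₂.1 h; (h1 u a).ne ha

theorem exists_ab (Λ : Lns W N) : ∃ b : LBas X univ, ∀ u, b.b u = Λ.a0 (p u) := by
  have s : ∀ x, x ∈ (W.φ M.c0).source := fun x => (W.mem_src _).2 (by simp [Sys.cores, Mark.c0])
  refine ⟨⟨fun u => Λ.a0 (p u), fun u => (Λ.ok0 _).sa, fun u => (Λ.ok0 _).dg, fun u x _ => ?_⟩,
    fun _ => rfl⟩
  exact ((Line51.j1_fixed ((Λ.uni M.c0 M.c0).sm_th x (s x))
    (.of_forall fun y => Line51.dg_th (U := univ) _ y trivial)).add (J1.pm (W.φ M.c0) (s x)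
      (J1.reparam (a := (Λ.Λ M.c0 M.c0).a) hp.contDiffAt fun _ he =>
        (Λ.Λ _ _).jAt_a (VJ.of_fixed he)))).congr (.of_forall fun z =>
    ((Λ.iso M.c0 M.c0 _ (Mark.mem_Br_c0 (h0 z.1))).par z.2 (s z.2)).symm)

omit hp h0 in
theorem rel_cases {t : A → ℝ} {t' t₀ : A' → ℝ} {x : X.M} (hx : x ∈ I.ψ.source) (ht : t ∈ M.sys.Par)
    (ht' : t' ∈ M'.sys.Par) (h1 : ∀ a, t a ≠ 0 → a ∈ range I.f) (h2 : ∀ a, t' (I.f' a) = t (I.f a))
    (h3 : ∀ a ∉ range I.f', t' a = t₀ a) (h4 : ∀ a, t₀ a ≠ 0 → a ∉ range I.f') :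
    (RelAt I t t' x ∧ ∀ a, t₀ a ≠ 0 → I.ψ x ∉ range (M'.bn a).j) ∨
      (∀ a, t a ≠ 0 → x ∉ range (M.bn a).j) ∧ ∀ a, I.ψ x ∈ range (M'.bn a).j → t' a = t₀ a := by
  by_cases k : ∃ a, t a ≠ 0 ∧ x ∈ range (M.bn a).j
  · obtain ⟨a, ha, k⟩ := k
    obtain ⟨a, rfl⟩ := h1 a ha
    have e : ∀ a', t' a' ≠ 0 → I.ψ x ∈ range (M'.bn a').j → I.f' a = a' := fun a' h k' =>
      by_contra fun e => Mark.not_cmp ((Met55.mem_band I a hx).2 k) k' (ht'.2 (h2 a ▸ ha :) h e)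
    refine .inl ⟨⟨ht, ht', hx, fun a ha _ => ?_, fun a' h k' => ⟨a, e a' h k', ha⟩⟩,
      fun a' h k' => h4 a' h ⟨a, e a' (h3 a' (h4 a' h) ▸ h) k'⟩⟩
    obtain ⟨a, rfl⟩ := h1 a ha
    exact ⟨a, rfl, h2 a⟩
  · simp only [not_exists, not_and] at k
    refine .inr ⟨k, fun a' h => by_contra fun e => ?_⟩
    obtain ⟨a, rfl⟩ : a' ∈ range I.f' := by_contra fun k' => e (h3 a' k')
    exact e (((h2 a).trans (by_contra fun k' => k _ k' ((Met55.mem_band I a hx).1 h))).trans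
      (by_contra fun k' => h4 _ (Ne.symm k') ⟨a, rfl⟩))

end pul

variable {κ lam : Type} [Fintype κ] [Fintype lam] [DecidableEq lam] {Lm : LM κ lam}

namespace Scene
variable {S : Scene Lm}

variable (S) in
/-- base data -/
structure Bs where
  B : Bas S.X univ
  b : S.L → LBas S.X univ
  met : ∀ (l : S.ls) u, ∀ x ∈ (Lm.M.sys.w ()).sd false, Met55.Co
    (fun n => mf Lm.X.I S.X.I (S.I l).ψ x (atx (Lm.B.r 0) x n)) (atx (B.r u) ((S.I l).ψ x))
  con : ∀ (l : S.ls) i u, ∀ x ∈ (Lm.M.sys.w ()).sd false,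
    pm Lm.X.I S.X.I (S.I l).ψ ((b i).b u) x = (Lm.b (S.sg l i)).b 0 x
  agr : ∀ l ∈ S.ls, ∀ i u, EqOn ((b (S.fl l i)).b u) ((b i).b u) (hf S.M l true)

/-- the base data of geometric data -/
def Dat.bs (D : S.Dat) : S.Bs := ⟨D.B, D.b, D.met, D.con, D.agr⟩

theorem Bs.exists_dat (β : S.Bs) (ok : S.OK) (C : Caps S.M) :
    ∃ D : S.Dat, D.W.toCaps = C ∧ D.B = β.B ∧ D.b = β.b := by
  obtain ⟨W, hC, hW⟩ := Met55.exw Ms48.ms1 _ _ _ S.M C β.B ok.sp
  choose Λ hΛ using fun i => Line51.exl _ _ _ _ S.M W (S.N i) (β.b i) (ok.spl i)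
  exact ⟨⟨W.nm, β.B, ⟨hW.off, hW.band⟩, fun i => (Λ i).nm, β.b, fun i => ⟨(hΛ i).off, (hΛ i).band⟩,
    β.met, β.con, β.agr, W.nm_nrm, fun i => (Λ i).nm_nrm⟩, hC, rfl, rfl⟩

section lens
variable (ok : S.OK) (i : S.L) (l : S.ls)
include ok i

theorem OK.src {y : Lm.X.M} (h : y ∈ hf Lm.M () false) : y ∈ (S.I l).ψ.source := (ok.ins l i).sub h

theorem OK.hf_iff (b : Bool) {y : Lm.X.M} (h : y ∈ hf Lm.M () false) :
    (S.I l).ψ y ∈ hf S.M l b ↔ y ∈ hf Lm.M () b :=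
  ok.wall l ▸ G75.hf_iff (I := S.I l) () b (ok.src i l h)

theorem OK.sd_in {y : Lm.X.M} (h : y ∈ (Lm.M.sys.w ()).sd false) :
    (S.I l).ψ y ∈ (S.M.sys.w l).sd false :=
  ok.wall l ▸ ((S.I l).sd () false y (ok.src i l (.inl h))).2 h

omit i in
theorem OK.cin_zero {l' : S.ls} (h : l' ≠ l) {x : S.X.M} (hx : x ∈ hf S.M l false) :
    cin (S.M.bn l') x = 0 := image_eq_zero_of_notMem_tsupport fun k =>
  disjoint_left.1 (ok.lsd _ l'.2 _ l.2 fun e => h (Subtype.ext e)) (cin_supp _ k) hx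

end lens

/-- **base data exist** -/
theorem exists_bs (ok : S.OK) (i₀ : S.L)
    (hL : EqOn ((Lm.b true).b 0) ((Lm.b false).b 0) (hf Lm.M () true)) : Nonempty S.Bs := by
  have := S.M.cpt
  obtain ⟨n, e, he⟩ := Met55.exists_frame (I := S.X.I) (M := S.X.M)
  have ex : ∀ (l : S.ls), ∀ x ∈ hf S.M l false, ∃ y ∈ hf Lm.M () false, (S.I l).ψ y = x :=
    fun l => (ok.img l).ge
  have li : ∀ (l : S.ls), ∀ y ∈ hf Lm.M () false, (S.I l).ψ.symm ((S.I l).ψ y) = y :=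
    fun l y h => (S.I l).ψ.left_inv (ok.src i₀ l h)
  have fa : ∀ (l : S.ls), ∀ x ∈ hf S.M l false, FAt (pfd (S.I l).ψ (Lm.B.r 0)) x := fun l x h => by
    obtain ⟨y, hy, rfl⟩ := ex l x h
    exact FAt.pfd (ok.src i₀ l hy) ⟨fun k => (Lm.B.sm 0 y trivial k).right, Lm.B.sp 0 y trivial⟩
  let r : Fin n ⊕ S.ls × Fin Lm.B.n → VF S.X.I S.X.M :=
    Sum.elim (fun k x => (∏ l : S.ls, (1 - cin (S.M.bn l) x)) • e k x)
      fun p x => cin (S.M.bn p.1) x • pfd (S.I p.1).ψ (Lm.B.r 0) p.2 x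
  have hr : ∀ x, FAt r x := fun x => by
    refine ⟨?_, ?_⟩
    · rintro (k | p)
      exacts [.smul (Pj41.FSm.prod' fun l _ => contMDiffAt_const.sub (cin_sm _ x)) ((he x).sm k),
        .cutoff (cin_sm _ x) (cin_supp _) fun h => (fa _ x h).sm _]
    · by_cases h : ∏ l : S.ls, (1 - cin (S.M.bn l) x) = 0
      · obtain ⟨l, -, h⟩ := Finset.prod_eq_zero_iff.1 h
        have k : cin (S.M.bn l) x ≠ 0 := by linarith
        exact (fa l x (cin_supp _ (subset_tsupport _ k))).sp.of_range fun a =>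
          ⟨_, .inr (l, a), (inv_smul_smul₀ k _).symm⟩
      · exact (he x).sp.of_range fun a => ⟨_, .inl a, (inv_smul_smul₀ h _).symm⟩
  let γ : S.L → S.X.M → Ext S.X.E := fun i => ∑ l : S.ls,
    cin (S.M.bn l) • pm S.X.I Lm.X.I (S.I l).ψ.symm ((Lm.b (S.sg l i)).b 0)
  refine ⟨⟨cstB r hr, fun i => cstL (γ i) (Dr59.sm_sum fun l _ x _ => Line51.smAt_cutoff (cin_sm _ x)
      (cin_supp _) fun h => ?_) (Dr59.dg_sum fun l _ =>
      (((Lm.b _).dg 0).pm (mapsTo_univ _ _)).fsmul _), fun l u y hy => .trans (fun α β => ?_)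
      (cstB_co hr u _), fun l i u y hy => ?_, fun l hl i u x hx => ?_⟩⟩
  · obtain ⟨y, hy, rfl⟩ := ex l x h
    exact .pm (Met55.pd_ld' ((S.I l).ψ.map_source (ok.src i l hy))).contMDiffAt
      ((Lm.b _).sm 0 _ trivial)
  · have h1 := cin_one (ok.sd_in i₀ l hy)
    rw [Fintype.sum_sum_type, Fintype.sum_prod_type, Finset.sum_eq_zero (s := Finset.univ (α := Fin n)),
      zero_add, Finset.sum_eq_single l]
    · refine Finset.sum_congr rfl fun k _ => ?_
      have : atx r ((S.I l).ψ y) (.inr (l, k)) = mf Lm.X.I S.X.I (S.I l).ψ y (atx (Lm.B.r 0) y k) :=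
        ((congrArg (· • _) h1).trans (one_smul _ _)).trans
          (Met55.pfd_rel (ok.src i₀ l (.inl hy)) k).symm
      rw [this]
    · refine fun l' _ h => Finset.sum_eq_zero fun k _ => ?_
      have : atx r ((S.I l).ψ y) (.inr (l', k)) = 0 :=
        (congrArg (· • _) (ok.cin_zero l h (.inl (ok.sd_in i₀ l hy)))).trans (zero_smul _ _)
      rw [this, map_zero, zero_mul]
    · exact fun h => (h (Finset.mem_univ _)).elim
    · intro k _
      have : atx r ((S.I l).ψ y) (.inl k) = 0 := (congrArg (· • _) (Finset.prod_eq_zero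
        (Finset.mem_univ l) (sub_eq_zero.2 h1.symm))).trans (zero_smul _ _)
      rw [this, map_zero, zero_mul]
  · have hs := ok.src i l (.inl hy)
    refine (Dr59.pm_congr_right (b := pm S.X.I Lm.X.I (S.I l).ψ.symm ((Lm.b (S.sg l i)).b 0)) ?_).trans ?_
    · refine (Finset.sum_apply _ _ _).trans ((Finset.sum_eq_single l (fun l' _ h => ?_)
        fun h => (h (Finset.mem_univ _)).elim).trans ?_)
      · rw [Pi.smul_apply', ok.cin_zero l h (.inl (ok.sd_in i l hy)), zero_smul]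
      · rw [Pi.smul_apply', cin_one (ok.sd_in i l hy), one_smul]
    · rw [Dr59.pm_comp ((Met55.pd_ld' ((S.I l).ψ.map_source hs)).mdifferentiableAt (by simp))
        ((S.I l).md hs)]
      exact Dr59.pm_of_eventually_id (eventually_of_mem ((S.I l).ψ.open_source.mem_nhds hs)
        fun _ k => (S.I l).ψ.left_inv k) _
  · show γ _ x = γ _ x
    simp only [γ, Finset.sum_apply]
    refine Finset.sum_congr rfl fun l' _ => ?_
    by_cases h : l = l'
    · subst h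
      by_cases k : x ∈ hf S.M l' false
      · obtain ⟨y, hy, rfl⟩ := ex l' x k
        have := hL ((ok.hf_iff i l' true hy).1 hx)
        rw [Pi.smul_apply', Pi.smul_apply']
        refine congrArg _ (Dr59.pm_congr_right ?_)
        rw [li l' y hy, ok.sg _ hl]
        cases S.sg l' i
        exacts [this, this.symm]
      · have : cin (S.M.bn l') x = 0 := image_eq_zero_of_notMem_tsupport fun h => k (cin_supp _ h)
        rw [Pi.smul_apply', Pi.smul_apply', this, zero_smul, zero_smul]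
    · rw [ok.sg' _ hl _ l'.2 h]

/-- **geometric data exist** -/
theorem exists_dat (ok : S.OK) (i₀ : S.L)
    (hL : EqOn ((Lm.b true).b 0) ((Lm.b false).b 0) (hf Lm.M () true)) : Nonempty S.Dat :=
  let ⟨β⟩ := exists_bs ok i₀ hL
  let ⟨C⟩ := Cyl58.caps _ _ _ S.M
  let ⟨D, _⟩ := β.exists_dat ok C
  ⟨D⟩

/-- a path of base data -/
def Bs.mix (β β' : S.Bs) (u u' : ℝ) : S.Bs where
  B := mixB β.B β'.B u u'
  b i := mixL (β.b i) (β'.b i) u u'
  met l s x hx a b := by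
    refine Eq.trans ?_ (mixB_cm _ _ u u' s _ a b).symm
    rw [M.cm, M.cm, ← β.met l u x hx, ← β'.met l u' x hx, ← add_mul, Real.cos_sq_add_sin_sq, one_mul]
  con l i s x hx := by
    simp only [mixL, Dr59.pm_add, Dr59.pm_smul, Pi.add_apply, Pi.smul_apply, β.con l i u x hx,
      β'.con l i u' x hx]
    module
  agr l hl i s x hx := congrArg₂ (fun a b => (1 - st s) • a + st s • b) (β.agr l hl i u hx)
    (β'.agr l hl i u' hx)

/-- **two geometric data are joined by a path**, constant for `s ≤ 0` and for `1 ≤ s` -/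
theorem dat_mix (ok : S.OK) (D D' : S.Dat) (u u' : ℝ) (C : Caps S.M) : ∃ E : S.Dat, E.W.toCaps = C ∧
    (∀ s ≤ 0, WId E.W D.W (.refl S.M) univ s u ∧
      ∀ i, CId (E.Λ i) (D.Λ i) (.refl S.M) univ (S.N i).p s u) ∧
    ∀ s ≥ 1, WId E.W D'.W (.refl S.M) univ s u' ∧
      ∀ i, CId (E.Λ i) (D'.Λ i) (.refl S.M) univ (S.N i).p s u' := by
  obtain ⟨E, h0, h1, h2⟩ := (D.bs.mix D'.bs u u').exists_dat ok C
  refine ⟨E, h0, fun s hs => ⟨wId_one E.std D.std fun x a b => ?_, fun i => cId_one (E.lstd i) (D.lstd i) ?_⟩,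
    fun s hs => ⟨wId_one E.std D'.std fun x a b => ?_, fun i => cId_one (E.lstd i) (D'.lstd i) ?_⟩⟩
  · rw [h1]
    refine (mixB_cm _ _ u u' s x a b).trans ?_
    simp [Real.smoothTransition.zero_of_nonpos hs]; rfl
  · simp [h2, Bs.mix, mixL, Real.smoothTransition.zero_of_nonpos hs, Dat.bs]
  · rw [h1]
    refine (mixB_cm _ _ u u' s x a b).trans ?_
    simp [Real.smoothTransition.one_of_one_le hs]; rfl
  · simp [h2, Bs.mix, mixL, Real.smoothTransition.one_of_one_le hs, Dat.bs]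

/-- frozen necks are absorbed in the base data -/
theorem Dat.abs (D : S.Dat) (ok : S.OK) (i₀ : S.L) {p : ℝ → Prm S.A} (hp : ContDiff ℝ ∞ p)
    (h0 : ∀ u, (p u).2 ∈ S.M.sys.Par) (h1 : ∀ u a, (p u).2 a < 1)
    (h2 : ∀ u a, (p u).2 a ≠ 0 → a ∈ S.fz) : ∃ β : S.Bs,
      (∀ u x, Co (D.W.k (p u) x) (atx (β.B.r u) x)) ∧ ∀ i u, (β.b i).b u = (D.Λ i).a0 (p u) := by
  classical
  obtain ⟨B, hB⟩ := exists_kb hp h0 D.W h1
  choose b hb using fun i => exists_ab hp h0 (D.Λ i)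
  have off : ∀ (l : S.ls) u, ∀ y ∈ (Lm.M.sys.w ()).sd false, ∀ a, (p u).2 a ≠ 0 →
      (S.I l).ψ y ∉ range (S.M.bn a).j := fun l u y hy a ha k =>
    (S.M.sys.w l).not_mem_sd (ok.sd_in i₀ l hy) (((ok.fz a (h2 u a ha)).2.2 l l.2).1 k)
  refine ⟨⟨B, b, fun l u y hy => ((D.met l (p u).1 y hy).trans
    (D.std.off _ _ (h0 u) _ (off l u y hy)).symm).trans (hB u _), fun l i u y hy => .trans
      (Dr59.pm_congr_right ((congrFun (hb i u) _).trans
        ((D.lstd i).off (p u).1 _ (h0 u) _ (off l u y hy))))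
      (D.con l i _ y hy), fun l hl i u x hx => ?_⟩, hB, hb⟩
  have e : ∀ c : S.X.M → Ext S.X.E, th S.X.I (S.N i).p x + pm S.X.I S.X.I id c x = c x := fun c => by
    rw [th_p, zero_add, Dr59.pm_id]
  have k : ∀ a, (p u).2 a ≠ 0 → (S.M.sys.w a).band ⊆ hf S.M l true := fun a ha =>
    ((ok.fz a (h2 u a ha)).2.2 l hl).1.trans subset_union_left
  have r : RelAt (selfId S.M (.subtype _ : S.Ou l ↪ S.A)) (p u).2 (p u).2 x :=
    ⟨h0 u, h0 u, trivial, fun a ha _ => ⟨⟨a, k a ha⟩, rfl, rfl⟩, fun a ha _ => ⟨⟨a, k a ha⟩, rfl, ha⟩⟩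
  rw [hb, hb]
  exact (e _).symm.trans (r.con (u := (p u).1) (u' := (p u).1) (D.lstd i) (D.lstd (S.fl l i))
    (ok.out l hl i) hx ((e _).trans (D.agr l hl i _ hx)))

variable {S' : Scene Lm} (m : Mt S S' univ) (hm : m.I.Glob) (ok : S.OK)
include hm ok

/-- pull-back of base data -/
theorem Bs.pull (i₀ : S.L) (β₀ : S.Bs) (β' : S'.Bs) : ∃ β : S.Bs, β.B = pulB hm β'.B ∧
    ∀ i, β.b (m.ι i) = pulL hm (m.lid i) (β'.b (m.ι' i)) := by
  let b : S.L → LBas S.X univ := extend m.ι (fun i => pulL hm (m.lid i) (β'.b (m.ι' i))) β₀.b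
  have b1 : ∀ i, b (m.ι i) = _ := m.ι.injective.extend_apply _ _
  have b2 : ∀ i ∉ range m.ι, b i = β₀.b i := extend_apply' _ _
  have ex : ∀ l ∈ S.ls, ∃ a ∈ m.ls, m.I.f a = l ∧ m.I.f' a ∈ S'.ls := fun l hl =>
    let ⟨a, h, e⟩ := Finset.mem_map.1 ((m.lin l hl).2 (subset_univ _))
    ⟨a, h, e, m.ls' ▸ Finset.mem_map_of_mem _ h⟩
  have ev := fun a h h' y (hy : y ∈ (Lm.M.sys.w ()).sd false) =>
    eventually_of_mem ((isOpen_hf () false).mem_nhds (.inl hy)) (m.mod a h h')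
  refine ⟨⟨_, b, fun ⟨l, hl⟩ u y hy => ?_, fun ⟨l, hl⟩ i u y hy => ?_, fun l hl i u x hx => ?_⟩, rfl, b1⟩ <;>
    obtain ⟨a, ha, rfl, h'⟩ := ex l hl
  · refine Co.of_map (A := dmp S.X.I S'.X.I m.I.ψ ((S.I ⟨_, hl⟩).ψ y))
      (Met55.ld_bij (Met55.pd_ld (Met55.src hm _))) ?_
    have := β'.met ⟨_, h'⟩ u y hy
    rw [Dr59.mf_congr (ev a hl h' y hy), Dr59.mf_comp (m.I.md (Met55.src hm _))
      ((S.I _).md (ok.src i₀ _ (.inl hy))), (ev a hl h' y hy).self_of_nhds, comp_apply,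
      ← pulB_rel hm] at this
    exact this
  · by_cases k : i ∈ range m.ι
    · obtain ⟨i, rfl⟩ := k
      obtain ⟨-, -, k1, -, k2⟩ := m.hfl a ha i
      have k3 : th S.X.I (m.w i) ((S.I ⟨_, hl⟩).ψ y) = 0 := (Line51.th_congr (eventually_of_mem
        ((isOpen_hf _ false).mem_nhds (.inl (ok.sd_in i₀ ⟨_, hl⟩ hy))) k2)).trans (th_p _ _)
      rw [b1, k1, ← β'.con ⟨_, h'⟩ _ u y hy, Dr59.pm_congr (ev a hl h' y hy) rfl, ← Dr59.pm_comp
        (m.I.md (Met55.src hm _)) ((S.I _).md (ok.src i₀ _ (.inl hy)))]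
      exact Dr59.pm_congr_right ((congrArg (· + _) k3).trans (zero_add _))
    · rw [b2 i k]; exact β₀.con ⟨_, hl⟩ i u y hy
  · by_cases k : i ∈ range m.ι
    · obtain ⟨i, rfl⟩ := k
      obtain ⟨k1, k2, -, k3, -⟩ := m.hfl a ha i
      have k4 := β'.agr _ h' (m.ι' i) u ((G75.hf_iff a true (Met55.src hm x)).2 hx)
      rw [← k2] at k4
      rw [← k1, b1, b1]
      exact congrArg₂ (· + ·) (Line51.th_congr (I := S.X.I) (eventually_of_mem
        ((isOpen_hf _ true).mem_nhds hx) fun y hy => k3 ⟨trivial, hy⟩))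
        (Dr59.pm_congr_right (J := S.X.I) (I := S'.X.I) k4)
    · rw [b2 i k, b2 _ fun ⟨j, e⟩ => k ⟨m.fl a j, by rw [(m.hfl a ha j).1, e, ok.inv _ hl]⟩]
      exact β₀.agr _ hl i u hx

/-- **pull-back of geometric data**; the additional frozen necks are at the parameters `p u` -/
theorem dat_pull (ok' : S'.OK) (i₀ : m.L₀) (β₀ : S.Bs) (D' : S'.Dat) (C : Caps S.M) {p : ℝ → Prm S'.A}
    (hp : ContDiff ℝ ∞ p) (h0 : ∀ u, (p u).2 ∈ S'.M.sys.Par) (h1 : ∀ u a, (p u).2 a < 1)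
    (h2 : ∀ u a, (p u).2 a ≠ 0 → a ∈ S'.fz ∧ a ∉ range m.I.f') : ∃ D : S.Dat, D.W.toCaps = C ∧
      ∀ u, ∀ t ∈ S.M.sys.Par, ∀ t' ∈ S'.M.sys.Par, (∀ a, t a ≠ 0 → a ∈ range m.I.f) →
        (∀ a, t' (m.I.f' a) = t (m.I.f a)) → (∀ a ∉ range m.I.f', t' a = (p u).2 a) →
        (∀ x ∉ S.M.sys.cores (Sys.inf t), Co (fun i => mf S.X.I S'.X.I m.I.ψ x (D.W.k (u, t) x i))
          (D'.W.k ((p u).1, t') (m.I.ψ x))) ∧
        ∀ i, Line51.Iso S.X.I ⟨(S.N (m.ι i)).p, (D.Λ (m.ι i)).a0 (u, t)⟩ (Ln.pull S.X.I S'.X.I m.I.ψ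
          ⟨(S'.N (m.ι' i)).p, (D'.Λ (m.ι' i)).a0 ((p u).1, t')⟩) (m.w i) univ := by
  obtain ⟨β', k1, k2⟩ := D'.abs ok' (m.ι' i₀) hp h0 h1 fun u a h => (h2 u a h).1
  obtain ⟨β, k3, k4⟩ := Bs.pull m hm ok (m.ι i₀) β₀ β'
  obtain ⟨D, hC, k5, k6⟩ := β.exists_dat ok C
  refine ⟨D, hC, fun u t ht t' ht' e1 e2 e3 => ?_⟩
  have key := fun x => rel_cases (Met55.src hm x) ht ht' e1 e2 e3 fun a h => (h2 u a h).2
  have hB : ∀ x, Co (fun i => mf S.X.I S'.X.I m.I.ψ x (atx (D.B.r u) x i)) (D'.W.k (p u) (m.I.ψ x)) :=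
    fun x => by rw [k5, k3, pulB_rel]; exact (k1 u _).symm
  have hb : ∀ i x, th S.X.I (m.w i) x + pm S.X.I S'.X.I m.I.ψ ((D'.Λ (m.ι' i)).a0 (p u)) x =
      (D.b (m.ι i)).b u x := fun i x => by rw [k6, k4, ← k2]; rfl
  refine ⟨fun x hx => (key x).elim (fun h => h.1.co D.std D'.std hx
      ((hB x).trans (D'.std.off _ _ (h0 u) _ h.2))) fun h =>
    (((D.std.off u t ht x h.1).map (dmp S.X.I S'.X.I m.I.ψ x)).trans (hB x)).trans
      (std_co D'.std D'.std (h0 u) ht' h.2 (fun k => ?_) (.refl _)),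
    fun i => ⟨(m.lid i).uni, fun x _ => (key x).elim (fun h => h.1.con (D.lstd _) (D'.lstd _) (m.lid i)
      trivial (.trans (congrArg _ (Dr59.pm_congr_right ((D'.lstd _).off _ _ (h0 u) _ h.2).symm))
        (hb i x))) fun h => .trans (congrArg _ (Dr59.pm_congr_right
      (std_con (D'.lstd _) (D'.lstd _) (h0 u) ht' h.2 rfl)))
      ((hb i x).trans ((D.lstd _).off u t ht x h.1).symm)⟩⟩
  obtain ⟨a, ha, -⟩ := mem_iUnion₂.1 k
  exact (h1 u a).ne ha

end Scene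

end Crest.Agent.X212.G75
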